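import Vale.Agent.P234.H936.Defs
import Mathlib.Topology.MetricSpace.GromovHausdorff

set_option linter.all false

open Set Filter Metric
open scoped Topology

namespace Vale.Agent.P234.H133

noncomputable section

universe u v

/-- The points `w` whose mountain through `(x, 0)` lies below the two mountains through `(x, 0)` with
foci `y` and `z`, up to `δ`. -/
def Sd {X : Type u} [MetricSpace X] (δ : ℝ) (x y z : X) : Set X :=
  {w | ∀ x' : X, cost x w - cost x' w ≤ max (cost x y - cost x' y) (cost x z - cost x' z) + δ}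

/-- Regularity of the quadratic cost of a metric space: any two foci can be joined inside the
`c`-subdifferential of the maximum of the two mountains. -/
def Star (X : Type u) [MetricSpace X] : Prop :=
  ∀ x y z : X, ∃ C : Set X, IsPreconnected C ∧ y ∈ C ∧ z ∈ C ∧ C ⊆ Sd 0 x y z

theorem cost_sub_le {X : Type u} [MetricSpace X] {Y : Type v} [MetricSpace Y] {D ε : ℝ} {x y : X} {x' y' : Y}
    (hD : dist x y ≤ D) (hε : 0 ≤ ε) (hε1 : ε ≤ 1) (h : |dist x y - dist x' y'| ≤ ε) :
    |cost x y - cost x' y'| ≤ ε * (2 * D + 1) := by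
  unfold cost
  have h1 := abs_le.1 h
  have h2 : (0 : ℝ) ≤ dist x y := dist_nonneg
  have h3 : (0 : ℝ) ≤ dist x' y' := dist_nonneg
  have e : dist x y ^ 2 / 2 - dist x' y' ^ 2 / 2 = (dist x y - dist x' y') * ((dist x y + dist x' y') / 2) := by
    ring
  rw [e, abs_mul]
  have h4 : |(dist x y + dist x' y') / 2| ≤ 2 * D + 1 := by
    rw [abs_of_nonneg (by positivity)]
    linarith [h1.1, h1.2]
  exact mul_le_mul h h4 (abs_nonneg _) hε

theorem mem_Sd_left {X : Type u} [MetricSpace X] {δ : ℝ} (hδ : 0 ≤ δ) (x y z : X) : y ∈ Sd δ x y z :=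
  fun x' => (le_max_left _ _).trans (by linarith)

theorem mem_Sd_right {X : Type u} [MetricSpace X] {δ : ℝ} (hδ : 0 ≤ δ) (x y z : X) : z ∈ Sd δ x y z :=
  fun x' => (le_max_right _ _).trans (by linarith)

theorem isClosed_Sd {X : Type u} [MetricSpace X] (δ : ℝ) (x y z : X) : IsClosed (Sd δ x y z) := by
  have hcc : ∀ w : X, Continuous (fun u : X => cost w u) := fun w => by unfold cost; fun_prop
  have h : Sd δ x y z = ⋂ x' : X,
      {w | cost x w - cost x' w ≤ max (cost x y - cost x' y) (cost x z - cost x' z) + δ} := by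
    ext w
    simp only [Sd, mem_setOf_eq, mem_iInter]
  rw [h]
  exact isClosed_iInter fun x' => isClosed_le ((hcc x).sub (hcc x')) continuous_const

/-- The property passes to the limit. -/
theorem star_of_approx {X : Type u} [MetricSpace X] [CompactSpace X]
    (h : ∀ ε : ℝ, 0 < ε → ∃ (Y : Type v) (_ : MetricSpace Y) (R : X → Y → Prop), Star Y ∧
      (∀ x, ∃ y, R x y) ∧ (∀ y, ∃ x, R x y) ∧
      ∀ x y x' y', R x x' → R y y' → |dist x y - dist x' y'| ≤ ε) : Star X := by
  intro x y z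
  have hy : y ∈ Sd 0 x y z := mem_Sd_left le_rfl x y z
  have hz : z ∈ Sd 0 x y z := mem_Sd_right le_rfl x y z
  by_cases hcon : (⟨z, hz⟩ : Sd 0 x y z) ∈ connectedComponent (⟨y, hy⟩ : Sd 0 x y z)
  · refine ⟨Subtype.val '' connectedComponent (⟨y, hy⟩ : Sd 0 x y z),
      isPreconnected_connectedComponent.image _ continuous_subtype_val.continuousOn,
      ⟨_, mem_connectedComponent, rfl⟩, ⟨_, hcon, rfl⟩, ?_⟩
    rintro _ ⟨w, _, rfl⟩
    exact w.2
  exfalso
  have hcs : CompactSpace (Sd 0 x y z) := isCompact_iff_compactSpace.1 (isClosed_Sd 0 x y z).isCompact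
  rw [connectedComponent_eq_iInter_isClopen, mem_iInter] at hcon
  push Not at hcon
  obtain ⟨⟨A, hA, hyA⟩, hzA⟩ := hcon
  simp only at hzA
  set A0 : Set X := Subtype.val '' A with hA0d
  set B0 : Set X := Subtype.val '' Aᶜ with hB0d
  have hA0 : IsCompact A0 := hA.isClosed.isCompact.image continuous_subtype_val
  have hB0 : IsCompact B0 := hA.compl.isClosed.isCompact.image continuous_subtype_val
  have hdisj : Disjoint A0 B0 :=
    (disjoint_image_iff Subtype.val_injective).2 disjoint_compl_right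
  obtain ⟨ρ, hρ, hdis⟩ := hdisj.exists_thickenings hA0 hB0.isClosed
  obtain ⟨n, hn⟩ : ∃ n : ℕ, Sd (1 / ((n : ℝ) + 1)) x y z ⊆
      thickening (ρ / 2) A0 ∪ thickening (ρ / 2) B0 := by
    refine exists_subset_nhds_of_isCompact' (V := fun n : ℕ => Sd (1 / ((n : ℝ) + 1)) x y z) ?_
      (fun n => (isClosed_Sd _ x y z).isCompact) (fun n => isClosed_Sd _ x y z) ?_
    · refine directed_of_isDirected_le fun i j hij w hw x' => ?_
      have h1 := hw x'
      have h2 : (1 : ℝ) / ((j : ℝ) + 1) ≤ 1 / ((i : ℝ) + 1) := by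
        have : (i : ℝ) ≤ (j : ℝ) := by exact_mod_cast hij
        gcongr
      linarith only [h1, h2]
    · intro w hw
      have hw0 : w ∈ Sd 0 x y z := by
        intro x'
        have h1 : Tendsto (fun n : ℕ => max (cost x y - cost x' y) (cost x z - cost x' z) +
            1 / ((n : ℝ) + 1)) atTop (𝓝 (max (cost x y - cost x' y) (cost x z - cost x' z) + 0)) :=
          tendsto_const_nhds.add tendsto_one_div_add_atTop_nhds_zero_nat
        exact ge_of_tendsto' h1 fun n => (mem_iInter.1 hw n) x'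
      refine (isOpen_thickening.union isOpen_thickening).mem_nhds ?_
      by_cases hwA : (⟨w, hw0⟩ : Sd 0 x y z) ∈ A
      · exact Or.inl (self_subset_thickening (by positivity) _ ⟨_, hwA, rfl⟩)
      · exact Or.inr (self_subset_thickening (by positivity) _ ⟨_, hwA, rfl⟩)
  set δ : ℝ := 1 / ((n : ℝ) + 1) with hδ
  have hδ0 : 0 < δ := by positivity
  set D : ℝ := Metric.diam (univ : Set X) with hD
  have hDd : ∀ a b : X, dist a b ≤ D := fun a b =>
    Metric.dist_le_diam_of_mem isCompact_univ.isBounded (mem_univ a) (mem_univ b)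
  have hD0 : 0 ≤ D := Metric.diam_nonneg
  set ε : ℝ := min 1 (min (ρ / 4) (δ / (4 * (2 * D + 1)))) with hε
  have hε0 : 0 < ε := by positivity
  have hε1 : ε ≤ 1 := min_le_left _ _
  have hε2 : ε ≤ ρ / 4 := (min_le_right _ _).trans (min_le_left _ _)
  have hε3 : ε ≤ δ / (4 * (2 * D + 1)) := (min_le_right _ _).trans (min_le_right _ _)
  have hε4 : 4 * (ε * (2 * D + 1)) ≤ δ := by
    rw [le_div_iff₀ (by positivity)] at hε3
    linarith only [hε3]
  obtain ⟨Y, _, R, hY, hl, hr, hR⟩ := h ε hε0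
  choose f hf using hl
  obtain ⟨C, hC, hyC, hzC, hCS⟩ := hY (f x) (f y) (f z)
  have hcst : ∀ a b a' b', R a a' → R b b' → |cost a b - cost a' b'| ≤ ε * (2 * D + 1) :=
    fun a b a' b' ha hb => cost_sub_le (hDd a b) hε0.le hε1 (hR a b a' b' ha hb)
  have key : ∀ w' ∈ C, ∀ w, R w w' → w ∈ Sd δ x y z := by
    intro w' hw' w hw x'
    have h1 := hCS hw' (f x')
    have h2 := abs_le.1 (hcst _ _ _ _ (hf x) hw)
    have h3 := abs_le.1 (hcst _ _ _ _ (hf x') hw)
    have h4 := abs_le.1 (hcst _ _ _ _ (hf x) (hf y))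
    have h5 := abs_le.1 (hcst _ _ _ _ (hf x') (hf y))
    have h6 := abs_le.1 (hcst _ _ _ _ (hf x) (hf z))
    have h7 := abs_le.1 (hcst _ _ _ _ (hf x') (hf z))
    rw [add_zero] at h1
    rcases le_max_iff.1 h1 with h8 | h8
    · have h9 := le_max_left (cost x y - cost x' y) (cost x z - cost x' z)
      linarith only [h8, h9, h2.2, h3.1, h4.1, h5.2, hε4]
    · have h9 := le_max_right (cost x y - cost x' y) (cost x z - cost x' z)
      linarith only [h8, h9, h2.2, h3.1, h6.1, h7.2, hε4]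
  set A' : Set Y := {w' | ∃ w ∈ thickening (ρ / 2) A0, R w w'} with hA'
  set B' : Set Y := {w' | ∃ w ∈ thickening (ρ / 2) B0, R w w'} with hB'
  have hcov : C ⊆ thickening (ρ / 8) A' ∪ thickening (ρ / 8) B' := by
    intro w' hw'
    obtain ⟨w, hw⟩ := hr w'
    rcases hn (key w' hw' w hw) with h1 | h1
    · exact Or.inl (self_subset_thickening (by positivity) _ ⟨w, h1, hw⟩)
    · exact Or.inr (self_subset_thickening (by positivity) _ ⟨w, h1, hw⟩)
  have hyA' : f y ∈ thickening (ρ / 8) A' :=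
    self_subset_thickening (by positivity) _
      ⟨y, self_subset_thickening (by positivity) _ ⟨_, hyA, rfl⟩, hf y⟩
  have hzB' : f z ∈ thickening (ρ / 8) B' :=
    self_subset_thickening (by positivity) _
      ⟨z, self_subset_thickening (by positivity) _ ⟨_, hzA, rfl⟩, hf z⟩
  obtain ⟨u, -, hu1, hu2⟩ := hC _ _ isOpen_thickening isOpen_thickening hcov ⟨_, hyC, hyA'⟩
    ⟨_, hzC, hzB'⟩
  obtain ⟨w1', ⟨w1, hw1, hw1'⟩, hd1⟩ := mem_thickening_iff.1 hu1
  obtain ⟨w2', ⟨w2, hw2, hw2'⟩, hd2⟩ := mem_thickening_iff.1 hu2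
  obtain ⟨a, ha, had⟩ := mem_thickening_iff.1 hw1
  obtain ⟨b, hb, hbd⟩ := mem_thickening_iff.1 hw2
  have h1 := (abs_le.1 (hR _ _ _ _ hw1' hw2')).2
  have h2 : dist w1' w2' ≤ dist u w1' + dist u w2' := by
    rw [dist_comm u w1']; exact dist_triangle _ _ _
  have h3 : dist w2 a ≤ dist w1 w2 + dist w1 a := by
    rw [dist_comm w1 w2]; exact dist_triangle _ _ _
  refine (Set.disjoint_left.1 hdis) (a := w2) (mem_thickening_iff.2 ⟨a, ha, ?_⟩)
    (mem_thickening_iff.2 ⟨b, hb, by linarith only [hbd, hρ]⟩)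
  linarith only [h1, h2, h3, hd1, hd2, had, hε2]

/-- Submetries. -/
theorem star_of_submetry {X : Type u} [MetricSpace X] {N : Type v} [MetricSpace N] (hX : Star X)
    (p : X → N) (hp : Function.Surjective p) (h1 : ∀ a b, dist (p a) (p b) ≤ dist a b)
    (h2 : ∀ a q, ∃ b, p b = q ∧ dist a b = dist (p a) q) : Star N := by
  intro x y z
  obtain ⟨x1, rfl⟩ := hp x
  obtain ⟨y1, rfl, hy⟩ := h2 x1 y
  obtain ⟨z1, rfl, hz⟩ := h2 x1 z
  obtain ⟨C, hC, hyC, hzC, hCS⟩ := hX x1 y1 z1
  have hpc : Continuous p := (LipschitzWith.of_dist_le_mul (K := 1) fun a b => by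
    rw [NNReal.coe_one, one_mul]; exact h1 a b).continuous
  have hcle : ∀ a b, cost (p a) (p b) ≤ cost a b := fun a b => by
    unfold cost
    have := h1 a b
    gcongr
  refine ⟨p '' C, hC.image _ hpc.continuousOn, ⟨_, hyC, rfl⟩, ⟨_, hzC, rfl⟩, ?_⟩
  rintro _ ⟨w, hw, rfl⟩ x'
  obtain ⟨x2, rfl, hx2⟩ := h2 w x'
  have h3 := hCS hw x2
  have e1 : cost x2 w = cost (p x2) (p w) := by
    unfold cost
    rw [dist_comm x2 w, hx2, dist_comm]
  have e2 : cost x1 y1 = cost (p x1) (p y1) := by unfold cost; rw [hy]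
  have e3 : cost x1 z1 = cost (p x1) (p z1) := by unfold cost; rw [hz]
  rw [e1, e2, e3] at h3
  have h4 := hcle x1 w
  have h5 := hcle x2 y1
  have h6 := hcle x2 z1
  have h7 : max (cost (p x1) (p y1) - cost x2 y1) (cost (p x1) (p z1) - cost x2 z1) ≤
      max (cost (p x1) (p y1) - cost (p x2) (p y1)) (cost (p x1) (p z1) - cost (p x2) (p z1)) :=
    max_le_max (by linarith only [h5]) (by linarith only [h6])
  linarith only [h3, h4, h7]

end

end Vale.Agent.P234.H133
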