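import Vale.Agent.P234.H133.RegDefs
import Vale.Agent.P234.H133.Metric

set_option linter.all false

open Set Filter Metric
open scoped Topology BigOperators

namespace Vale.Agent.P234.H133

noncomputable section

universe u v

variable {X : Type u} [MetricSpace X]

theorem exists_maximal {Γ : Set (X × X)} (h : CMono Γ) : ∃ Γ', Γ ⊆ Γ' ∧ Maximal CMono Γ' := by
  refine zorn_subset_nonempty {Γ | CMono Γ} ?_ Γ h
  intro c hc hch hne
  refine ⟨⋃₀ c, ?_, fun s hs => subset_sUnion_of_mem hs⟩
  intro n p hp σ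
  obtain ⟨s, hs, hps⟩ := hch.directedOn.exists_mem_subset_of_finite_of_subset_sUnion hne
    (finite_range p) (by rintro _ ⟨i, rfl⟩; exact hp i)
  exact hc hs n p (fun i => hps (mem_range_self i)) σ

/-- The graph of two mountains. -/
theorem cmono_two (x y z : X) : CMono {p : X × X | (p.2 = y ∨ p.2 = z) ∧
    cost x p.2 - cost p.1 p.2 = max (cost x y - cost p.1 y) (cost x z - cost p.1 z)} := by
  intro n p hp σ
  have h1 : ∀ i, cost (p i).1 (p i).2 = cost x (p i).2 -
      max (cost x y - cost (p i).1 y) (cost x z - cost (p i).1 z) := fun i => by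
    have := (hp i).2
    linarith only [this]
  have h2 : ∀ i, cost x (p (σ i)).2 -
      max (cost x y - cost (p i).1 y) (cost x z - cost (p i).1 z) ≤ cost (p i).1 (p (σ i)).2 := by
    intro i
    rcases (hp (σ i)).1 with h | h
    · rw [h]
      have := le_max_left (cost x y - cost (p i).1 y) (cost x z - cost (p i).1 z)
      linarith only [this]
    · rw [h]
      have := le_max_right (cost x y - cost (p i).1 y) (cost x z - cost (p i).1 z)
      linarith only [this]
  have h3 : ∑ i, cost x (p (σ i)).2 = ∑ i, cost x (p i).2 :=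
    Equiv.sum_comp σ fun i => cost x (p i).2
  calc ∑ i, cost (p i).1 (p i).2 = ∑ i, (cost x (p i).2 -
        max (cost x y - cost (p i).1 y) (cost x z - cost (p i).1 z)) :=
        Finset.sum_congr rfl fun i _ => h1 i
    _ = ∑ i, (cost x (p (σ i)).2 -
        max (cost x y - cost (p i).1 y) (cost x z - cost (p i).1 z)) := by
        rw [Finset.sum_sub_distrib, Finset.sum_sub_distrib, h3]
    _ ≤ _ := Finset.sum_le_sum fun i _ => h2 i

theorem cmono_pair {Γ : Set (X × X)} (h : CMono Γ) {p q : X × X} (hp : p ∈ Γ) (hq : q ∈ Γ) :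
    cost p.1 p.2 + cost q.1 q.2 ≤ cost p.1 q.2 + cost q.1 p.2 := by
  have := h 2 ![p, q] (by intro i; fin_cases i; exacts [hp, hq]) (Equiv.swap 0 1)
  simpa [Fin.sum_univ_two] using this

theorem star_of_regular (h : Regular X) : Star X := by
  intro x y z
  obtain ⟨Γ, hΓ, hmax⟩ := exists_maximal (cmono_two x y z)
  refine ⟨{w | (x, w) ∈ Γ}, h Γ hmax x, hΓ ?_, hΓ ?_, ?_⟩
  · refine ⟨Or.inl rfl, ?_⟩
    simp
  · refine ⟨Or.inr rfl, ?_⟩
    simp
  · intro w hw u
    have hw' : (x, w) ∈ Γ := hw
    rcases le_total (cost x z - cost u z) (cost x y - cost u y) with h1 | h1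
    · have h2 : (u, y) ∈ Γ := hΓ ⟨Or.inl rfl, (max_eq_left h1).symm⟩
      have h3 := cmono_pair hmax.prop hw' h2
      simp only at h3
      rw [max_eq_left h1]
      linarith only [h3]
    · have h2 : (u, z) ∈ Γ := hΓ ⟨Or.inr rfl, (max_eq_right h1).symm⟩
      have h3 := cmono_pair hmax.prop hw' h2
      simp only at h3
      rw [max_eq_right h1]
      linarith only [h3]

theorem regular_of_star (h : Star X) : Regular X := by
  intro Γ hΓ x
  refine isPreconnected_of_forall_pair ?_
  intro y hy z hz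
  obtain ⟨C, hC, hyC, hzC, hCS⟩ := h x y z
  refine ⟨C, ?_, hyC, hzC, hC⟩
  -- adding `{x} × C` keeps cyclical monotonicity
  have hmono : CMono (Γ ∪ {p : X × X | p.1 = x ∧ p.2 ∈ C}) := by
    classical
    intro n p hp σ
    -- replacement
    have hrep : ∀ i, ∃ q ∈ Γ, q.1 = (p i).1 ∧
        cost (p i).1 (p i).2 - cost (p (σ.symm i)).1 (p i).2 ≤
          cost (p i).1 q.2 - cost (p (σ.symm i)).1 q.2 := by
      intro i
      rcases hp i with h1 | ⟨h1, h2⟩
      · exact ⟨p i, h1, rfl, le_rfl⟩
      · have h3 := hCS h2 (p (σ.symm i)).1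
        rw [add_zero] at h3
        rcases le_max_iff.1 h3 with h4 | h4
        · exact ⟨(x, y), hy, h1.symm, by rw [h1]; exact h4⟩
        · exact ⟨(x, z), hz, h1.symm, by rw [h1]; exact h4⟩
    choose q hq hq1 hq2 using hrep
    have h1 := hΓ.prop n q hq σ
    have h2 : ∀ f : Fin n → X × X, (∀ i, (f i).1 = (p i).1) →
        ∑ i, cost (f i).1 (f (σ i)).2 = ∑ i, cost (p (σ.symm i)).1 (f i).2 := by
      intro f hf
      rw [← Equiv.sum_comp σ fun i => cost (p (σ.symm i)).1 (f i).2]
      refine Finset.sum_congr rfl fun i _ => ?_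
      rw [Equiv.symm_apply_apply, hf]
    rw [h2 q hq1] at h1
    rw [h2 p fun _ => rfl]
    have h3 : ∑ i, (cost (p i).1 (p i).2 - cost (p (σ.symm i)).1 (p i).2) ≤
        ∑ i, (cost (p i).1 (q i).2 - cost (p (σ.symm i)).1 (q i).2) :=
      Finset.sum_le_sum fun i _ => hq2 i
    have h4 : ∑ i, cost (q i).1 (q i).2 = ∑ i, cost (p i).1 (q i).2 :=
      Finset.sum_congr rfl fun i _ => by rw [hq1]
    rw [Finset.sum_sub_distrib, Finset.sum_sub_distrib] at h3
    rw [h4] at h1
    linarith only [h1, h3]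
  have hsub : Γ ∪ {p : X × X | p.1 = x ∧ p.2 ∈ C} ⊆ Γ :=
    hΓ.2 hmono subset_union_left
  exact fun w hw => hsub (Or.inr ⟨rfl, hw⟩)

theorem regular_iff_star : Regular X ↔ Star X := ⟨star_of_regular, regular_of_star⟩

/-- Right-angle comparison. -/
theorem Star.comparison (h : Star X) {p x y z : X} (hx : dist y x + dist x z = dist y z) :
    min (dist p y ^ 2 - dist x y ^ 2) (dist p z ^ 2 - dist x z ^ 2) ≤ dist p x ^ 2 := by
  obtain ⟨C, hC, hyC, hzC, hCS⟩ := h x y z
  have hc1 : IsClosed {w : X | dist x w ^ 2 + dist w y ^ 2 ≤ dist x y ^ 2} :=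
    isClosed_le (by fun_prop) continuous_const
  have hc2 : IsClosed {w : X | dist x w ^ 2 + dist w z ^ 2 ≤ dist x z ^ 2} :=
    isClosed_le (by fun_prop) continuous_const
  have hcov : C ⊆ {w : X | dist x w ^ 2 + dist w y ^ 2 ≤ dist x y ^ 2} ∪
      {w : X | dist x w ^ 2 + dist w z ^ 2 ≤ dist x z ^ 2} := by
    intro w hw
    have h1 := hCS hw w
    rw [add_zero] at h1
    unfold cost at h1
    rw [dist_self] at h1
    rcases le_max_iff.1 h1 with h2 | h2
    · left
      change dist x w ^ 2 + dist w y ^ 2 ≤ dist x y ^ 2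
      linarith only [h2]
    · right
      change dist x w ^ 2 + dist w z ^ 2 ≤ dist x z ^ 2
      linarith only [h2]
  obtain ⟨w, hw, hwy, hwz⟩ := isPreconnected_closed_iff.1 hC _ _ hc1 hc2 hcov
    ⟨y, hyC, by simp⟩ ⟨z, hzC, by simp⟩
  have hwy' : dist x w ^ 2 + dist w y ^ 2 ≤ dist x y ^ 2 := hwy
  have hwz' : dist x w ^ 2 + dist w z ^ 2 ≤ dist x z ^ 2 := hwz
  -- the crossing point is `x`
  have hwx : w = x := by
    have h1 := dist_triangle y w z
    rw [← hx, dist_comm y w, dist_comm y x] at h1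
    have h2 : dist w y ≤ dist x y := by
      by_contra hlt
      push Not at hlt
      nlinarith [dist_nonneg (x := x) (y := y), sq_nonneg (dist x w)]
    have h3 : dist w z ≤ dist x z := by
      by_contra hlt
      push Not at hlt
      nlinarith [dist_nonneg (x := x) (y := z), sq_nonneg (dist x w)]
    have h4 : dist w y = dist x y := by linarith only [h1, h2, h3]
    rw [h4] at hwy'
    have h5 : dist x w ^ 2 ≤ 0 := by linarith only [hwy']
    have h6 : dist x w = 0 := by
      have := sq_nonneg (dist x w)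
      exact pow_eq_zero_iff (two_ne_zero) |>.1 (le_antisymm h5 this)
    exact (dist_eq_zero.1 h6).symm
  subst hwx
  have h1 := hCS hw p
  rw [add_zero] at h1
  unfold cost at h1
  rw [dist_self] at h1
  rcases le_max_iff.1 h1 with h2 | h2
  · refine (min_le_left _ _).trans ?_
    linarith only [h2]
  · refine (min_le_right _ _).trans ?_
    linarith only [h2]

end

end Vale.Agent.P234.H133
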