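import Vale.Agent.P234.H133.Cyc
import Vale.Agent.P234.H936.Main

set_option maxSynthPendingDepth 3
set_option linter.all false

open Bundle Manifold Set Filter Metric
open scoped ContDiff Manifold Topology

namespace Vale.Agent.P234.H133

noncomputable section

/-- Two foci which are joined: all `c`-subdifferentials of two mountains are connected. -/
theorem connected_iff_star {X : Type*} [MetricSpace X] :
    (∀ (a b : ℝ) (y z x : X),
      IsConnected (cSubdiff (fun x' => max (a - cost x' y) (b - cost x' z)) x)) ↔ Star X := by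
  constructor
  · intro h x y z
    refine ⟨cSubdiff (fun x' => max (cost x y - cost x' y) (cost x z - cost x' z)) x,
      (h _ _ y z x).isPreconnected, ?_, ?_, ?_⟩
    · intro x'
      beta_reduce
      rw [sub_self, sub_self, max_self, zero_add]
      exact le_max_left _ _
    · intro x'
      beta_reduce
      rw [sub_self, sub_self, max_self, zero_add]
      exact le_max_right _ _
    · intro w hw x'
      have h1 := hw x'
      beta_reduce at h1
      rw [sub_self, sub_self, max_self, zero_add] at h1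
      rwa [add_zero]
  · intro h a b y z x
    -- the focus which touches
    have hmem : ∀ (ψ : X → ℝ) (a : ℝ) (y : X), ψ x = a - cost x y → (∀ x', a - cost x' y ≤ ψ x') →
        IsConnected (cSubdiff ψ x) := by
      intro ψ a y h1 h2
      have hy : y ∈ cSubdiff ψ x := by
        intro x'
        have := h2 x'
        linarith only [this, h1]
      refine ⟨⟨y, hy⟩, isPreconnected_of_forall y fun w hw => ?_⟩
      obtain ⟨C, hC, hyC, hwC, hCS⟩ := h x y w
      refine ⟨C, fun u hu x' => ?_, hyC, hwC, hC⟩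
      have h3 := hCS hu x'
      have h4 := hy x'
      have h5 := hw x'
      rw [add_zero] at h3
      rcases le_max_iff.1 h3 with h6 | h6
      · linarith only [h6, h4]
      · linarith only [h6, h5]
    rcases le_total (b - cost x z) (a - cost x y) with h1 | h1
    · exact hmem _ a y (max_eq_left h1) fun x' => le_max_left _ _
    · exact hmem _ b z (max_eq_right h1) fun x' => le_max_right _ _

universe u v w

variable {E : Type*} [NormedAddCommGroup E] [NormedSpace ℝ E] [FiniteDimensional ℝ E]
  {M : Type*} [MetricSpace M] [ChartedSpace E M]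
  [RiemannianBundle (fun x : M => TangentSpace 𝓘(ℝ, E) x)]
  [IsManifold 𝓘(ℝ, E) ∞ M]
  [IsContMDiffRiemannianBundle 𝓘(ℝ, E) ∞ E (fun x : M => TangentSpace 𝓘(ℝ, E) x)]
  [CompactSpace M] [IsRiemannianManifold 𝓘(ℝ, E) M] [ConnectedSpace M]
  {e : ∀ x : M, TangentSpace 𝓘(ℝ, E) x → M}

theorem weakMTW_iff_star (he : IsExp e) : WeakMTW e ↔ Star M :=
  ((Reg.tfae (facts_of_isExp he)).out 0 4).trans connected_iff_star

theorem weakMTW_iff_regular (he : IsExp e) : WeakMTW e ↔ Regular M :=
  (weakMTW_iff_star he).trans regular_iff_star.symm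

omit [FiniteDimensional ℝ E] in
theorem regular_of_limit {X : Type v} [MetricSpace X] [CompactSpace X] [Nonempty X]
    (h : ∀ ε : ℝ, 0 < ε → ∃ (Y : Type w) (_ : MetricSpace Y) (_ : CompactSpace Y) (_ : Nonempty Y),
      Regular Y ∧ GromovHausdorff.ghDist X Y < ε) : Regular X := by
  refine regular_of_star (star_of_approx.{_, w} fun ε hε => ?_)
  obtain ⟨Y, hX1, hX2, hX3, hX, hgh⟩ := h (ε / 2) (by positivity)
  obtain ⟨Φ, Ψ, hΦ, hΨ, hd⟩ := GromovHausdorff.ghDist_eq_hausdorffDist X Y
  rw [hd] at hgh
  have hfin : hausdorffEDist (range Φ) (range Ψ) ≠ ⊤ :=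
    hausdorffEDist_ne_top_of_nonempty_of_bounded (range_nonempty _) (range_nonempty _)
      (isCompact_range hΦ.continuous).isBounded (isCompact_range hΨ.continuous).isBounded
  refine ⟨Y, hX1, fun a b => dist (Φ a) (Ψ b) < ε / 2, star_of_regular hX, ?_, ?_, ?_⟩
  · intro a
    obtain ⟨_, ⟨b, rfl⟩, hb⟩ := exists_dist_lt_of_hausdorffDist_lt (mem_range_self a) hgh hfin
    exact ⟨b, hb⟩
  · intro b
    obtain ⟨_, ⟨a, rfl⟩, ha⟩ := exists_dist_lt_of_hausdorffDist_lt' (mem_range_self b) hgh hfin
    exact ⟨a, ha⟩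
  · intro a b a' b' ha hb
    rw [← hΦ.dist_eq a b, ← hΨ.dist_eq a' b']
    have h1 : dist (Φ a) (Φ b) ≤ dist (Φ a) (Ψ a') + dist (Ψ a') (Ψ b') + dist (Φ b) (Ψ b') := by
      rw [dist_comm (Φ b) (Ψ b')]
      exact dist_triangle4 _ _ _ _
    have h2 : dist (Ψ a') (Ψ b') ≤ dist (Φ a) (Ψ a') + dist (Φ a) (Φ b) + dist (Φ b) (Ψ b') := by
      rw [dist_comm (Φ a) (Ψ a')]
      exact dist_triangle4 _ _ _ _
    rw [abs_le]
    constructor
    · linarith only [h2, ha, hb]
    · linarith only [h1, ha, hb]

theorem regular_of_submetry {X : Type v} [MetricSpace X] [Nonempty X] {Y : Type w} [MetricSpace Y]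
    (hX : Regular X) (p : X → Y)
    (hp : ∀ (a : X) (r : ℝ), p '' closedBall a r = closedBall (p a) r) : Regular Y := by
  have h1 : ∀ a b, dist (p a) (p b) ≤ dist a b := by
    intro a b
    have h : p b ∈ p '' closedBall a (dist a b) :=
      ⟨b, by rw [mem_closedBall, dist_comm], rfl⟩
    rw [hp, mem_closedBall, dist_comm] at h
    exact h
  have h2 : ∀ a q, ∃ b, p b = q ∧ dist a b = dist (p a) q := by
    intro a q
    have h : q ∈ p '' closedBall a (dist (p a) q) := by
      rw [hp, mem_closedBall, dist_comm]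
    obtain ⟨b, hb, rfl⟩ := h
    rw [mem_closedBall, dist_comm] at hb
    exact ⟨b, rfl, le_antisymm hb (h1 a b)⟩
  obtain ⟨x0⟩ := ‹Nonempty X›
  have hs : Function.Surjective p := fun q => (h2 x0 q).imp fun b hb => hb.1
  exact regular_of_star (star_of_submetry (star_of_regular hX) p hs h1 h2)

end

end Vale.Agent.P234.H133
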