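import Vale.Agent.P234.Defs

namespace Vale.Agent.P234

/-- `Γ ⊆ X × X` is cyclically monotone for the quadratic cost (`cost x y = dist x y ^ 2 / 2`): no
finite number of its pairs can be rematched at a smaller total cost. Supports of optimal transport
plans have this property. -/
def CMono {X : Type*} [MetricSpace X] (Γ : Set (X × X)) : Prop :=
  ∀ (n : ℕ) (p : Fin n → X × X), (∀ i, p i ∈ Γ) → ∀ σ : Equiv.Perm (Fin n),
    ∑ i, cost (p i).1 (p i).2 ≤ ∑ i, cost (p i).1 (p (σ i)).2

/-- The quadratic cost of the metric space `X` is regular: every maximal cyclically monotone set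
`Γ ⊆ X × X` has connected (possibly empty) fibres `{y | (x, y) ∈ Γ}`, `x ∈ X`. -/
def Regular (X : Type*) [MetricSpace X] : Prop :=
  ∀ Γ : Set (X × X), Maximal CMono Γ → ∀ x : X, IsPreconnected {y | (x, y) ∈ Γ}

end Vale.Agent.P234
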